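import Vale.Agent.P011.H260.Unfold
import Mathlib.MeasureTheory.Function.LpSpace.ContinuousCompMeasurePreserving
import Mathlib.MeasureTheory.Group.Measure
import Mathlib.MeasureTheory.Group.Prod
import Mathlib.Topology.CompactOpen
import Mathlib.MeasureTheory.Function.L1Space.Integrable
import Mathlib.MeasureTheory.Integral.IntegrableOn
import Mathlib.MeasureTheory.Measure.Prod

/-!
# The Mautner phenomenon for bounded functions, without representations

`G` is a locally compact group with a left and right invariant measure, `L` a countable discrete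
subgroup with a compact `Ω` such that `L Ω = G`, and `E` a bounded measurable function on `G`,
invariant on both sides under `L`. If `g₀ ∈ L` and `g₀ ^ m * u * g₀ ^ (-m)` tends to `1` then
`E (g * u) = E g` for almost all `g`. The set of all `u` with this property is a closed subgroup.
-/

open MeasureTheory ENNReal Function Filter Topology
open scoped Pointwise

namespace Vale.Agent.P011.H260

section L1

variable {G : Type*} [Group G] [TopologicalSpace G] [IsTopologicalGroup G]
  [LocallyCompactSpace G] [MeasurableSpace G] [BorelSpace G] {μ : Measure G}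
  [μ.IsMulRightInvariant] [IsLocallyFiniteMeasure μ] [μ.InnerRegularCompactLTTop]

/-- Right multiplication as a continuous map. -/
def rightMul (u : G) : C(G, G) := ⟨fun g => g * u, continuous_mul_const u⟩

omit [LocallyCompactSpace G] [MeasurableSpace G] [BorelSpace G] in
theorem continuous_rightMul : Continuous (rightMul : G → C(G, G)) := by
  have h : Continuous fun p : G × G => p.2 * p.1 := continuous_snd.mul continuous_fst
  exact (ContinuousMap.curry ⟨fun p : G × G => p.2 * p.1, h⟩).continuous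

/-- Continuity of right translations in `L¹`. -/
theorem tendsto_translate {ι : Type*} {l : Filter ι} {f : G → ℝ} (hf : Integrable f μ)
    {u : ι → G} (hu : Tendsto u l (𝓝 1)) :
    Tendsto (fun a => ∫⁻ g, ‖f (g * u a) - f g‖ₑ ∂μ) l (𝓝 0) := by
  have hp : MemLp f 1 μ := memLp_one_iff_integrable.mpr hf
  have hmp : ∀ v : G, MeasurePreserving (rightMul v) μ μ := fun v =>
    measurePreserving_mul_right μ v
  have h1 : Tendsto (fun a => Lp.compMeasurePreserving (rightMul (u a)) (hmp _) (hp.toLp f)) l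
      (𝓝 (Lp.compMeasurePreserving (rightMul (1 : G)) (hmp _) (hp.toLp f))) :=
    Tendsto.compMeasurePreservingLp tendsto_const_nhds
      ((continuous_rightMul.tendsto 1).comp hu) (fun a => hmp _) (hmp _) one_ne_top
  have h2 := tendsto_iff_edist_tendsto_0.mp h1
  refine h2.congr fun a => ?_
  rw [Lp.edist_def, eLpNorm_one_eq_lintegral_enorm]
  refine lintegral_congr_ae ?_
  have hc : ∀ v : G, ∀ᵐ g ∂μ,
      Lp.compMeasurePreserving (rightMul v) (hmp v) (hp.toLp f) g = f (g * v) := fun v => by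
    have h3 := Lp.coeFn_compMeasurePreserving (hp.toLp f) (hmp v)
    have h4 := (hmp v).quasiMeasurePreserving.ae hp.coeFn_toLp
    filter_upwards [h3, h4] with g h3 h4
    rw [h3]
    exact h4
  filter_upwards [hc (u a), hc 1] with g h3 h4
  rw [Pi.sub_apply, h3, h4, mul_one]

end L1

section Mautner

variable {G : Type*} [Group G] [TopologicalSpace G] [IsTopologicalGroup G]
  [LocallyCompactSpace G] [T2Space G] [MeasurableSpace G] [BorelSpace G] {μ : Measure G}
  [μ.IsMulLeftInvariant] [μ.IsMulRightInvariant] [IsFiniteMeasureOnCompacts μ]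
  [μ.InnerRegularCompactLTTop] {L : Subgroup G} [Countable L]

/-- The weight of a compact set of representatives. -/
theorem isWeight_of_compact {Ω : Set G} (hΩ : IsCompact Ω) (hcov : ∀ g : G, ∃ γ ∈ L, γ * g ∈ Ω)
    (hdisc : ∀ K : Set G, IsCompact K → ((L : Set G) ∩ K).Finite) :
    IsWeight L (setWeight L Ω) := by
  refine isWeight_setWeight hΩ.measurableSet (fun x => ?_) fun x => ?_
  · obtain ⟨γ, hγ, h⟩ := hcov x
    exact ⟨⟨γ, hγ⟩, h⟩
  · have h1 : IsCompact ((fun g => g * x⁻¹) '' Ω) := hΩ.image (continuous_mul_const _)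
    refine Set.Finite.of_finite_image ((hdisc _ h1).subset ?_) Subtype.val_injective.injOn
    rintro _ ⟨γ, hγ, rfl⟩
    refine ⟨γ.2, γ • x, hγ, ?_⟩
    simp only [Subgroup.smul_def, smul_eq_mul]
    rw [mul_inv_cancel_right]

/-- Continuity of right translations in the mean, for bounded functions. -/
theorem tendsto_translate_mean {Ω : Set G} (hΩ : IsCompact Ω) {E : G → ℝ} (hE : Measurable E)
    {C : ℝ} (hC : ∀ g, |E g| ≤ C) {ι : Type*} {l : Filter ι} {u : ι → G}
    (hu : Tendsto u l (𝓝 1)) :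
    Tendsto (fun a => ∫⁻ g in Ω, ‖E (g * u a) - E g‖ₑ ∂μ) l (𝓝 0) := by
  obtain ⟨V, hV, hVn⟩ := exists_compact_mem_nhds (1 : G)
  have hK : IsCompact (Ω * V) := hΩ.mul hV
  have hfi : Integrable ((Ω * V).indicator E) μ := by
    refine IntegrableOn.integrable_indicator ?_ hK.measurableSet
    refine Measure.integrableOn_of_bounded (M := C) hK.measure_lt_top.ne hE.aestronglyMeasurable ?_
    exact Filter.Eventually.of_forall fun g => by
      rw [Real.norm_eq_abs]
      exact hC g
  refine tendsto_of_tendsto_of_tendsto_of_le_of_le' tendsto_const_nhds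
    (tendsto_translate hfi hu) (Eventually.of_forall fun a => zero_le) ?_
  filter_upwards [hu hVn] with a ha
  calc ∫⁻ g in Ω, ‖E (g * u a) - E g‖ₑ ∂μ
      = ∫⁻ g in Ω, ‖(Ω * V).indicator E (g * u a) - (Ω * V).indicator E g‖ₑ ∂μ := by
        refine setLIntegral_congr_fun hΩ.measurableSet fun g hg => ?_
        have h1 : g * u a ∈ Ω * V := Set.mul_mem_mul hg ha
        have h2 : g ∈ Ω * V := by
          have := Set.mul_mem_mul hg (mem_of_mem_nhds hVn)
          rwa [mul_one] at this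
        simp only [Set.indicator_of_mem h1, Set.indicator_of_mem h2]
    _ ≤ ∫⁻ g, ‖(Ω * V).indicator E (g * u a) - (Ω * V).indicator E g‖ₑ ∂μ :=
        setLIntegral_le_lintegral _ _

/-- The right stabilizer of a function. -/
def rightStab (μ : Measure G) [μ.IsMulRightInvariant] (E : G → ℝ) : Subgroup G where
  carrier := {u | ∀ᵐ g ∂μ, E (g * u) = E g}
  mul_mem' {u v} hu hv := by
    have h1 := (measurePreserving_mul_right μ u).quasiMeasurePreserving.ae hv
    filter_upwards [hu, h1] with g h2 h3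
    rw [← mul_assoc, h3, h2]
  one_mem' := by
    rw [Set.mem_setOf_eq]
    exact Filter.Eventually.of_forall fun g => by rw [mul_one]
  inv_mem' {u} hu := by
    have h1 := (measurePreserving_mul_right μ u⁻¹).quasiMeasurePreserving.ae hu
    rw [Set.mem_setOf_eq]
    filter_upwards [h1] with g h2
    rw [← h2, inv_mul_cancel_right]

theorem mem_rightStab {E : G → ℝ} {u : G} :
    u ∈ rightStab μ E ↔ ∀ᵐ g ∂μ, E (g * u) = E g := Iff.rfl

/-- The mean of the difference. -/
noncomputable def dmean (μ : Measure G) (L : Subgroup G) (Ω : Set G) (E : G → ℝ) (u : G) : ℝ≥0∞ :=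
  ∫⁻ g, setWeight L Ω g * ‖E (g * u) - E g‖ₑ ∂μ

theorem dmean_inv {E : G → ℝ} (hl : ∀ a ∈ L, ∀ᵐ g ∂μ, E (a * g) = E g) (v : G) (γ : L) :
    ∀ᵐ g ∂μ, ‖E (γ • g * v) - E (γ • g)‖ₑ = ‖E (g * v) - E g‖ₑ := by
  have h1 := (measurePreserving_mul_right μ v).quasiMeasurePreserving.ae (hl γ γ.2)
  filter_upwards [hl γ γ.2, h1] with g h2 h3
  rw [Subgroup.smul_def, smul_eq_mul, mul_assoc, h2, h3]

theorem measurable_diff {E : G → ℝ} (hE : Measurable E) (v : G) :
    Measurable fun g => ‖E (g * v) - E g‖ₑ :=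
  ((hE.comp (measurable_mul_const v)).sub hE).enorm

theorem dmean_left {Ω : Set G} (hw : IsWeight L (setWeight L Ω))
    {E : G → ℝ} (hE : Measurable E) (hl : ∀ a ∈ L, ∀ᵐ g ∂μ, E (a * g) = E g) {v : G}
    (hv : v ∈ rightStab μ E) (w : G) : dmean μ L Ω E (v * w) = dmean μ L Ω E w := by
  have h1 := lintegral_weight_comp (μ := μ) hw (measurable_diff hE w).aemeasurable
    (dmean_inv hl w) (MeasurableEquiv.mulRight v) (measurePreserving_mul_right μ _)
    (fun γ x => by simp only [MeasurableEquiv.coe_mulRight, Subgroup.smul_def, smul_eq_mul,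
      mul_assoc])
  rw [dmean, dmean, ← h1]
  refine lintegral_congr_ae ?_
  filter_upwards [hv] with g h3
  rw [MeasurableEquiv.coe_mulRight, h3, mul_assoc]

theorem dmean_right {Ω : Set G} {E : G → ℝ} {v : G}
    (hv : v ∈ rightStab μ E) (w : G) : dmean μ L Ω E (w * v) = dmean μ L Ω E w := by
  rw [dmean, dmean]
  refine lintegral_congr_ae ?_
  have h2 := (measurePreserving_mul_right μ w).quasiMeasurePreserving.ae hv
  filter_upwards [h2] with g h3
  rw [← mul_assoc, h3]

theorem tendsto_dmean {Ω : Set G} (hΩ : IsCompact Ω) (hw : IsWeight L (setWeight L Ω))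
    {E : G → ℝ} (hE : Measurable E) {C : ℝ} (hC : ∀ g, |E g| ≤ C) {ι : Type*} {l : Filter ι}
    {u : ι → G} (hu : Tendsto u l (𝓝 1)) : Tendsto (fun a => dmean μ L Ω E (u a)) l (𝓝 0) := by
  refine tendsto_of_tendsto_of_tendsto_of_le_of_le tendsto_const_nhds
    (tendsto_translate_mean (μ := μ) hΩ hE hC hu) (fun a => zero_le) fun a => ?_
  dsimp only [dmean]
  rw [← lintegral_indicator hΩ.measurableSet]
  refine lintegral_mono fun g => ?_
  by_cases hg : g ∈ Ω
  · rw [Set.indicator_of_mem hg]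
    exact mul_le_of_le_one_left' (hw.le_one g)
  · rw [setWeight_of_notMem hg, zero_mul]
    exact zero_le

theorem finite_smul_mem {Ω : Set G} (hΩ : IsCompact Ω)
    (hdisc : ∀ K : Set G, IsCompact K → ((L : Set G) ∩ K).Finite) (x : G) :
    {γ : L | γ • x ∈ Ω}.Finite := by
  have h1 : IsCompact ((fun g => g * x⁻¹) '' Ω) := hΩ.image (continuous_mul_const _)
  refine Set.Finite.of_finite_image ((hdisc _ h1).subset ?_) Subtype.val_injective.injOn
  rintro _ ⟨γ, hγ, rfl⟩
  refine ⟨γ.2, γ • x, hγ, ?_⟩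
  simp only [Subgroup.smul_def, smul_eq_mul]
  rw [mul_inv_cancel_right]

theorem mem_of_dmean_eq_zero {Ω : Set G} (hw : IsWeight L (setWeight L Ω))
    (hcov : ∀ g : G, ∃ γ ∈ L, γ * g ∈ Ω) (hfin : ∀ x : G, {γ : L | γ • x ∈ Ω}.Finite)
    {E : G → ℝ} (hE : Measurable E) (hl : ∀ a ∈ L, ∀ᵐ g ∂μ, E (a * g) = E g) {u : G}
    (hzero : dmean μ L Ω E u = 0) : u ∈ rightStab μ E := by
  have h1 := (lintegral_eq_zero_iff (hw.meas.mul (measurable_diff hE u))).mp hzero
  have h2 : ∀ γ : L, ∀ᵐ g ∂μ, setWeight L Ω (γ • g) * ‖E (γ • g * u) - E (γ • g)‖ₑ = 0 := fun γ =>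
    (measurePreserving_smul γ μ).quasiMeasurePreserving.ae h1
  have h3 := ae_all_iff.mpr h2
  have h4 := ae_all_iff.mpr (dmean_inv (μ := μ) hl u)
  rw [mem_rightStab]
  filter_upwards [h3, h4] with g h3 h4
  obtain ⟨γ, hγ, hg⟩ := hcov g
  have h5 := h3 ⟨γ, hγ⟩
  rw [h4 ⟨γ, hγ⟩] at h5
  have h6 : setWeight L Ω ((⟨γ, hγ⟩ : L) • g) ≠ 0 := setWeight_pos hg (hfin _)
  have h8 := (mul_eq_zero.mp h5).resolve_left h6
  rwa [enorm_eq_zero, sub_eq_zero] at h8

/-- **The Mautner phenomenon.** -/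
theorem mautner {Ω : Set G} (hΩ : IsCompact Ω) (hcov : ∀ g : G, ∃ γ ∈ L, γ * g ∈ Ω)
    (hdisc : ∀ K : Set G, IsCompact K → ((L : Set G) ∩ K).Finite)
    {E : G → ℝ} (hE : Measurable E) {C : ℝ} (hC : ∀ g, |E g| ≤ C)
    (hl : ∀ a ∈ L, ∀ᵐ g ∂μ, E (a * g) = E g) {g₀ : G} (hg₀ : g₀ ∈ rightStab μ E) {u : G}
    (hu : Tendsto (fun m : ℕ => g₀ ^ m * u * (g₀ ^ m)⁻¹) atTop (𝓝 1)) :
    u ∈ rightStab μ E := by
  have hw := isWeight_of_compact hΩ hcov hdisc
  refine mem_of_dmean_eq_zero hw hcov (finite_smul_mem hΩ hdisc) hE hl (le_antisymm ?_ zero_le)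
  refine ge_of_tendsto' (tendsto_dmean (μ := μ) hΩ hw hE hC hu) fun m => ?_
  have hm := (rightStab μ E).pow_mem hg₀ m
  rw [dmean_right ((rightStab μ E).inv_mem hm), dmean_left hw hE hl hm]

/-- The right stabilizer of a bounded function is closed. -/
theorem isClosed_rightStab {Ω : Set G} (hΩ : IsCompact Ω) (hcov : ∀ g : G, ∃ γ ∈ L, γ * g ∈ Ω)
    (hdisc : ∀ K : Set G, IsCompact K → ((L : Set G) ∩ K).Finite)
    {E : G → ℝ} (hE : Measurable E) {C : ℝ} (hC : ∀ g, |E g| ≤ C)
    (hl : ∀ a ∈ L, ∀ᵐ g ∂μ, E (a * g) = E g) : IsClosed (rightStab μ E : Set G) := by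
  have hw := isWeight_of_compact hΩ hcov hdisc
  refine isClosed_of_closure_subset fun u hu => ?_
  have hne := mem_closure_iff_nhdsWithin_neBot.mp hu
  refine mem_of_dmean_eq_zero hw hcov (finite_smul_mem hΩ hdisc) hE hl (le_antisymm ?_ zero_le)
  have h1 : Tendsto (fun v : G => v⁻¹ * u) (𝓝[(rightStab μ E : Set G)] u) (𝓝 1) := by
    have h2 : ContinuousAt (fun v : G => v⁻¹ * u) u :=
      (continuous_inv.mul continuous_const).continuousAt
    have h3 : Tendsto (fun v : G => v⁻¹ * u) (𝓝 u) (𝓝 1) := by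
      have := h2.tendsto
      rwa [inv_mul_cancel] at this
    exact h3.mono_left nhdsWithin_le_nhds
  refine ge_of_tendsto (tendsto_dmean (μ := μ) hΩ hw hE hC h1) ?_
  filter_upwards [self_mem_nhdsWithin] with v hv
  rw [dmean_left hw hE hl ((rightStab μ E).inv_mem hv)]

/-- A function invariant under all right translations is almost everywhere constant. -/
theorem ae_const_of_rightStab [SFinite μ] [NeZero μ] {E : G → ℝ} (hE : Measurable E)
    [SecondCountableTopology G] (h : ∀ u, u ∈ rightStab μ E) : ∃ c : ℝ, ∀ᵐ g ∂μ, E g = c := by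
  have h1 : ∀ᵐ p ∂(μ.prod μ), E (p.2 * p.1) = E p.2 := by
    have hms : MeasurableSet {p : G × G | E (p.2 * p.1) = E p.2} :=
      measurableSet_eq_fun (hE.comp (measurable_snd.mul measurable_fst)) (hE.comp measurable_snd)
    rw [Measure.ae_prod_iff_ae_ae hms]
    exact Filter.Eventually.of_forall fun u => h u
  have h2 : ∀ᵐ p ∂(μ.prod μ), E (p.1 * p.2) = E p.1 := by
    have h3 : MeasurePreserving Prod.swap (μ.prod μ) (μ.prod μ) :=
      ⟨measurable_swap, Measure.prod_swap⟩
    exact h3.quasiMeasurePreserving.ae h1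
  have h4 : ∀ᵐ g ∂μ, ∀ᵐ u ∂μ, E (g * u) = E g := Measure.ae_ae_of_ae_prod h2
  obtain ⟨g, hg⟩ := h4.exists
  refine ⟨E g, ?_⟩
  have h5 := (measurePreserving_mul_left μ g⁻¹).quasiMeasurePreserving.ae hg
  filter_upwards [h5] with x hx
  rwa [mul_inv_cancel_left] at hx

end Mautner

end Vale.Agent.P011.H260
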