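import Mathlib.MeasureTheory.Group.Action
import Mathlib.MeasureTheory.Group.Arithmetic
import Mathlib.MeasureTheory.Integral.Lebesgue.Countable
import Mathlib.MeasureTheory.Integral.Bochner.Basic
import Mathlib.MeasureTheory.Measure.WithDensity
import Mathlib.MeasureTheory.Function.AEEqFun

/-!
# Unfolding

A countable group `L` acts by measure preserving maps on a measure space `X`. A *weight* is a
measurable function `ψ : X → [0, ∞]` with `∑ γ, ψ (γ • x) = 1` for all `x`. The integral of `ψ F`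
for an `L`-invariant `F` does not depend on the weight `ψ`, and it is invariant under the measure
preserving transformations commuting with `L`. Weights are obtained from any measurable set `Ω`
meeting every orbit in a finite nonempty set. No fundamental domain is needed.
-/

open MeasureTheory ENNReal Function

namespace Vale.Agent.P011.H260

section Weight

variable {X : Type*} [MeasurableSpace X]

/-- A weight for the action of `L`. -/
structure IsWeight (L : Type*) [Group L] [MulAction L X] (ψ : X → ℝ≥0∞) : Prop where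
  meas : Measurable ψ
  sum_eq : ∀ x, ∑' γ : L, ψ (γ • x) = 1

variable {L : Type*} [Group L] [MulAction L X] {μ : Measure X}

theorem IsWeight.le_one {ψ : X → ℝ≥0∞} (h : IsWeight L ψ) (x : X) : ψ x ≤ 1 := by
  rw [← h.sum_eq x]
  have := ENNReal.le_tsum (f := fun γ : L => ψ (γ • x)) 1
  simpa using this

theorem IsWeight.sum_inv {ψ : X → ℝ≥0∞} (h : IsWeight L ψ) (x : X) :
    ∑' γ : L, ψ (γ⁻¹ • x) = 1 := by
  rw [← h.sum_eq x]
  exact (Equiv.inv L).tsum_eq fun γ : L => ψ (γ • x)

variable [Countable L] [MeasurableConstSMul L X] [SMulInvariantMeasure L X μ]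

/-- **Unfolding.** -/
theorem lintegral_weight {ψ ψ' : X → ℝ≥0∞} (h : IsWeight L ψ) (h' : IsWeight L ψ')
    {F : X → ℝ≥0∞} (hm : AEMeasurable F μ) (hF : ∀ γ : L, ∀ᵐ x ∂μ, F (γ • x) = F x) :
    ∫⁻ x, ψ x * F x ∂μ = ∫⁻ x, ψ' x * F x ∂μ := by
  have hs : ∀ γ : L, Measurable fun x : X => ψ (γ⁻¹ • x) := fun γ =>
    h.meas.comp (measurable_const_smul _)
  have hs' : ∀ γ : L, Measurable fun x : X => ψ' (γ • x) := fun γ =>
    h'.meas.comp (measurable_const_smul _)
  calc ∫⁻ x, ψ x * F x ∂μ = ∫⁻ x, ∑' γ : L, ψ' (γ • x) * (ψ x * F x) ∂μ := by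
        refine lintegral_congr fun x => ?_
        rw [ENNReal.tsum_mul_right, h'.sum_eq, one_mul]
    _ = ∑' γ : L, ∫⁻ x, ψ' (γ • x) * (ψ x * F x) ∂μ :=
        lintegral_tsum fun γ => ((hs' γ).aemeasurable).mul (h.meas.aemeasurable.mul hm)
    _ = ∑' γ : L, ∫⁻ x, ψ' x * (ψ (γ⁻¹ • x) * F x) ∂μ := by
        refine tsum_congr fun γ => ?_
        have h1 : ∫⁻ x, ψ' (γ • x) * (ψ x * F x) ∂μ
            = ∫⁻ x, (fun y => ψ' y * (ψ (γ⁻¹ • y) * F (γ⁻¹ • y))) (γ • x) ∂μ := by
          refine lintegral_congr fun x => ?_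
          simp only [inv_smul_smul]
        rw [h1]
        have h2 := (measurePreserving_smul γ μ).lintegral_comp_emb
          (measurableEmbedding_const_smul γ) fun y => ψ' y * (ψ (γ⁻¹ • y) * F (γ⁻¹ • y))
        rw [h2]
        refine lintegral_congr_ae ?_
        filter_upwards [hF γ⁻¹] with x hx
        rw [hx]
    _ = ∫⁻ x, ∑' γ : L, ψ' x * (ψ (γ⁻¹ • x) * F x) ∂μ := by
        rw [lintegral_tsum]
        exact fun γ => h'.meas.aemeasurable.mul ((hs γ).aemeasurable.mul hm)
    _ = ∫⁻ x, ψ' x * F x ∂μ := by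
        refine lintegral_congr fun x => ?_
        rw [ENNReal.tsum_mul_left, ENNReal.tsum_mul_right, h.sum_inv, one_mul]

/-- The weight transported by a measurable equivalence commuting with `L`. -/
theorem IsWeight.comp {ψ : X → ℝ≥0∞} (h : IsWeight L ψ) {T : X → X} (hT : Measurable T)
    (hc : ∀ (γ : L) x, T (γ • x) = γ • T x) : IsWeight L fun x => ψ (T x) :=
  ⟨h.meas.comp hT, fun x => by simp only [hc]; exact h.sum_eq _⟩

/-- The mean is invariant under measure preserving maps commuting with `L`. -/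
theorem lintegral_weight_comp {ψ : X → ℝ≥0∞} (h : IsWeight L ψ) {F : X → ℝ≥0∞}
    (hm : AEMeasurable F μ) (hF : ∀ γ : L, ∀ᵐ x ∂μ, F (γ • x) = F x) (T : X ≃ᵐ X)
    (hT : MeasurePreserving T μ μ) (hc : ∀ (γ : L) x, T (γ • x) = γ • T x) :
    ∫⁻ x, ψ x * F (T x) ∂μ = ∫⁻ x, ψ x * F x ∂μ := by
  have hc' : ∀ (γ : L) x, T.symm (γ • x) = γ • T.symm x := fun γ x => by
    apply T.injective
    rw [hc, T.apply_symm_apply, T.apply_symm_apply]
  have h1 : ∫⁻ x, ψ x * F (T x) ∂μ = ∫⁻ x, (fun y => ψ (T.symm y) * F y) (T x) ∂μ :=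
    lintegral_congr fun x => by simp only [T.symm_apply_apply]
  rw [h1, hT.lintegral_comp_emb T.measurableEmbedding fun y => ψ (T.symm y) * F y]
  exact lintegral_weight (h.comp T.symm.measurable hc') h hm hF

/-- The weight defined by a set meeting all orbits in finite nonempty sets. -/
noncomputable def setWeight (L : Type*) [Group L] [MulAction L X] (Ω : Set X) (x : X) : ℝ≥0∞ :=
  Ω.indicator 1 x / ∑' γ : L, Ω.indicator (1 : X → ℝ≥0∞) (γ • x)

omit [MeasurableSpace X] [Countable L] [MeasurableConstSMul L X] in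
theorem tsum_indicator_smul (Ω : Set X) (γ₀ : L) (x : X) :
    ∑' γ : L, Ω.indicator (1 : X → ℝ≥0∞) (γ • γ₀ • x)
      = ∑' γ : L, Ω.indicator (1 : X → ℝ≥0∞) (γ • x) := by
  simp only [smul_smul]
  exact (Equiv.mulRight γ₀).tsum_eq fun γ : L => Ω.indicator (1 : X → ℝ≥0∞) (γ • x)

omit [SMulInvariantMeasure L X μ] in
theorem isWeight_setWeight {Ω : Set X} (hΩ : MeasurableSet Ω) (hne : ∀ x, ∃ γ : L, γ • x ∈ Ω)
    (hfin : ∀ x, {γ : L | γ • x ∈ Ω}.Finite) : IsWeight L (setWeight L Ω) := by
  refine ⟨?_, fun x => ?_⟩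
  · refine (measurable_one.indicator hΩ).div ?_
    exact Measurable.ennreal_tsum fun γ =>
      (measurable_one.indicator hΩ).comp (measurable_const_smul γ)
  · have h0 : ∑' γ : L, Ω.indicator (1 : X → ℝ≥0∞) (γ • x) ≠ 0 := by
      obtain ⟨γ, hγ⟩ := hne x
      intro h
      have := ENNReal.tsum_eq_zero.mp h γ
      rw [Set.indicator_of_mem hγ] at this
      exact one_ne_zero this
    have h1 : ∑' γ : L, Ω.indicator (1 : X → ℝ≥0∞) (γ • x) ≠ ∞ := by
      have h2 : ∑' γ : L, Ω.indicator (1 : X → ℝ≥0∞) (γ • x)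
          = ∑ γ ∈ (hfin x).toFinset, Ω.indicator (1 : X → ℝ≥0∞) (γ • x) := by
        refine tsum_eq_sum fun γ hγ => ?_
        refine Set.indicator_of_notMem (fun h => hγ ?_) _
        rw [Set.Finite.mem_toFinset]
        exact h
      rw [h2]
      refine ENNReal.sum_ne_top.mpr fun γ _ => ?_
      exact ne_top_of_le_ne_top one_ne_top (Set.indicator_le_self' (fun _ _ => zero_le) _)
    have h3 : ∀ γ : L, setWeight L Ω (γ • x) = Ω.indicator (1 : X → ℝ≥0∞) (γ • x) *
        (∑' γ : L, Ω.indicator (1 : X → ℝ≥0∞) (γ • x))⁻¹ := fun γ => by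
      rw [setWeight, tsum_indicator_smul, div_eq_mul_inv]
    simp only [h3]
    rw [ENNReal.tsum_mul_right, ENNReal.mul_inv_cancel h0 h1]

omit [MeasurableSpace X] [Countable L] [MeasurableConstSMul L X] in
theorem setWeight_of_notMem {Ω : Set X} {x : X} (hx : x ∉ Ω) : setWeight L Ω x = 0 := by
  rw [setWeight, Set.indicator_of_notMem hx, ENNReal.zero_div]

omit [MeasurableSpace X] [Countable L] [MeasurableConstSMul L X] in
theorem setWeight_pos {Ω : Set X} {x : X} (hx : x ∈ Ω) (hfin : {γ : L | γ • x ∈ Ω}.Finite) :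
    setWeight L Ω x ≠ 0 := by
  rw [setWeight, Set.indicator_of_mem hx]
  refine ENNReal.div_ne_zero.mpr ⟨one_ne_zero, ?_⟩
  have h2 : ∑' γ : L, Ω.indicator (1 : X → ℝ≥0∞) (γ • x)
      = ∑ γ ∈ hfin.toFinset, Ω.indicator (1 : X → ℝ≥0∞) (γ • x) := by
    refine tsum_eq_sum fun γ hγ => ?_
    refine Set.indicator_of_notMem (fun h => hγ ?_) _
    rw [Set.Finite.mem_toFinset]
    exact h
  rw [h2]
  refine ENNReal.sum_ne_top.mpr fun γ _ => ?_
  exact ne_top_of_le_ne_top one_ne_top (Set.indicator_le_self' (fun _ _ => zero_le) _)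

end Weight

section Integral

variable {X : Type*} [MeasurableSpace X] {L : Type*} [Group L] [MulAction L X] {μ : Measure X}
  [Countable L] [MeasurableConstSMul L X] [SMulInvariantMeasure L X μ]

/-- The measure with density a weight: the mean over the quotient by `L`. -/
theorem withDensity_inv {ψ ψ' : X → ℝ≥0∞} (h : IsWeight L ψ) (h' : IsWeight L ψ') {A : Set X}
    (hA : MeasurableSet A) (hinv : ∀ (γ : L) (x : X), γ • x ∈ A ↔ x ∈ A) :
    μ.withDensity ψ A = μ.withDensity ψ' A := by
  have hF : ∀ γ : L, ∀ᵐ x ∂μ, A.indicator (1 : X → ℝ≥0∞) (γ • x) = A.indicator 1 x :=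
    fun γ => Filter.Eventually.of_forall fun x => by
      by_cases hx : x ∈ A
      · rw [Set.indicator_of_mem hx, Set.indicator_of_mem ((hinv γ x).mpr hx)]
        rfl
      · rw [Set.indicator_of_notMem hx, Set.indicator_of_notMem (fun h => hx ((hinv γ x).mp h))]
  have key := lintegral_weight (μ := μ) h h' ((measurable_one.indicator hA).aemeasurable) hF
  have hc : ∀ φ : X → ℝ≥0∞, Measurable φ →
      μ.withDensity φ A = ∫⁻ x, φ x * A.indicator (1 : X → ℝ≥0∞) x ∂μ := fun φ _ => by
    rw [withDensity_apply _ hA, ← lintegral_indicator hA]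
    refine lintegral_congr fun x => ?_
    by_cases hx : x ∈ A
    · rw [Set.indicator_of_mem hx, Set.indicator_of_mem hx, Pi.one_apply, mul_one]
    · rw [Set.indicator_of_notMem hx, Set.indicator_of_notMem hx, mul_zero]
  rw [hc ψ h.meas, hc ψ' h'.meas, key]

/-- The measurable `L`-invariant sets. -/
def invSpace (L X : Type*) [Group L] [MulAction L X] [MeasurableSpace X] : MeasurableSpace X where
  MeasurableSet' A := MeasurableSet A ∧ ∀ (γ : L) (x : X), γ • x ∈ A ↔ x ∈ A
  measurableSet_empty := ⟨MeasurableSet.empty, fun _ _ => Iff.rfl⟩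
  measurableSet_compl A hA := ⟨hA.1.compl, fun γ x => not_congr (hA.2 γ x)⟩
  measurableSet_iUnion f hf := ⟨MeasurableSet.iUnion fun i => (hf i).1, fun γ x => by
    simp only [Set.mem_iUnion, (hf _).2]⟩

omit [Countable L] [MeasurableConstSMul L X] in
theorem invSpace_le : invSpace L X ≤ ‹MeasurableSpace X› := fun _ h => h.1

theorem trim_eq {ψ ψ' : X → ℝ≥0∞} (h : IsWeight L ψ) (h' : IsWeight L ψ') :
    (μ.withDensity ψ).trim (invSpace_le (L := L)) = (μ.withDensity ψ').trim invSpace_le := by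
  refine @Measure.ext _ (invSpace L X) _ _ fun A hA => ?_
  rw [trim_measurableSet_eq _ hA, trim_measurableSet_eq _ hA]
  exact withDensity_inv h h' hA.1 hA.2

variable {E : Type*} [NormedAddCommGroup E] [NormedSpace ℝ E]

omit [Countable L] [MeasurableConstSMul L X] in
theorem stronglyMeasurable_inv {F : X → E} (hm : StronglyMeasurable F)
    (hF : ∀ (γ : L) x, F (γ • x) = F x) : StronglyMeasurable[invSpace L X] F := by
  borelize E
  refine (@stronglyMeasurable_iff_measurable_separable X E F (invSpace L X) _ _ _ _).mpr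
    ⟨fun A hA => ⟨hm.measurable hA, fun γ x => ?_⟩, hm.isSeparable_range⟩
  rw [Set.mem_preimage, Set.mem_preimage, hF]

/-- Unfolding for Bochner integrals. -/
theorem integral_weight {ψ ψ' : X → ℝ≥0∞} (h : IsWeight L ψ) (h' : IsWeight L ψ') {F : X → E}
    (hm : StronglyMeasurable F) (hF : ∀ (γ : L) x, F (γ • x) = F x) :
    ∫ x, F x ∂(μ.withDensity ψ) = ∫ x, F x ∂(μ.withDensity ψ') := by
  have hs := stronglyMeasurable_inv hm hF
  rw [integral_trim (invSpace_le (L := L)) hs, integral_trim (invSpace_le (L := L)) hs,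
    trim_eq h h']

/-- A measure preserving transformation maps the mean to a mean. -/
theorem map_withDensity (ψ : X → ℝ≥0∞) (T : X ≃ᵐ X) (hT : MeasurePreserving T μ μ) :
    (μ.withDensity ψ).map T = μ.withDensity fun x => ψ (T.symm x) := by
  ext A hA
  have h1 : ∫⁻ x, A.indicator (fun x => ψ (T.symm x)) (T x) ∂μ
      = ∫⁻ x, A.indicator (fun x => ψ (T.symm x)) x ∂μ :=
    hT.lintegral_comp_emb T.measurableEmbedding _
  rw [T.map_apply, withDensity_apply _ (T.measurable hA), withDensity_apply _ hA,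
    ← lintegral_indicator hA, ← lintegral_indicator (T.measurable hA), ← h1]
  refine lintegral_congr fun x => ?_
  by_cases hx : T x ∈ A
  · rw [Set.indicator_of_mem (show x ∈ T ⁻¹' A from hx), Set.indicator_of_mem hx,
      T.symm_apply_apply]
  · rw [Set.indicator_of_notMem (show x ∉ T ⁻¹' A from hx), Set.indicator_of_notMem hx]

/-- The mean of a Banach space valued invariant function is invariant under the measure preserving
transformations commuting with `L`. -/
theorem integral_weight_comp {ψ : X → ℝ≥0∞} (h : IsWeight L ψ) {F : X → E}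
    (hm : StronglyMeasurable F) (hF : ∀ (γ : L) x, F (γ • x) = F x) (T : X ≃ᵐ X)
    (hT : MeasurePreserving T μ μ) (hc : ∀ (γ : L) x, T (γ • x) = γ • T x) :
    ∫ x, F (T x) ∂(μ.withDensity ψ) = ∫ x, F x ∂(μ.withDensity ψ) := by
  have hc' : ∀ (γ : L) x, T.symm (γ • x) = γ • T.symm x := fun γ x => by
    apply T.injective
    rw [hc, T.apply_symm_apply, T.apply_symm_apply]
  rw [← integral_map_equiv T F, map_withDensity ψ T hT]
  exact integral_weight (h.comp T.symm.measurable hc') h hm hF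

end Integral

end Vale.Agent.P011.H260
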